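import Vale.Agent.P235.H606.PDefs
import Vale.Agent.P235.H873.Apex
import Vale.Agent.P235.H273.GlueMain
import Vale.Agent.P235.R2.H718.Desc
import Vale.Agent.P235.R2.H907.VarK

/-!
P235 (helper953 for helper606), row PTS: the metric of a finite set of points.
-/

set_option autoImplicit false

namespace Vale.Agent.P235.H953

open Finset Vale.Agent.P235 Vale.Agent.P235.H606

/-- the logarithmic bound: Bourgain's embedding for the points of `O` -/
theorem pts_log {V : Type} [Finite V] {G : SimpleGraph V} {ℓ : Sym2 V → ℝ} (hc : G.Connected)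
    (hℓ : ∀ e ∈ G.edgeSet, 0 < ℓ e) (O : Set V) (m : ℕ) (hm : O.ncard ≤ m) :
    EmbedsL1 (fun x y : O => pathDist G ℓ x y) (72 * Real.log ((m : ℝ) + 2)) := by
  classical
  have hd := pathDist_isMet hc hℓ
  rcases O.eq_empty_or_nonempty with h0 | hO
  · subst h0
    have he : IsEmpty (∅ : Set V) := Set.isEmpty_coe_sort.2 rfl
    have h1 : IsL1 (fun _ _ : (∅ : Set V) => |(0 : ℝ) - 0|) :=
      isL1_line (fun _ : (∅ : Set V) => (0 : ℝ))
    exact h1.embeds (fun x => (he.false x).elim) (fun x => (he.false x).elim)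
  · obtain ⟨ν, hν⟩ := exists_near hc hℓ hO
    have hfin : O.Finite := Set.toFinite O
    obtain ⟨β, hβI, hβu, hβl⟩ := H873.bourgain (d := pathDist G ℓ) hd.symm hd.tri hd.nonneg
      hfin.toFinset (fun u => pathDist G ℓ u (ν u)) (fun u => ⟨ν u, by simpa using hν.mem u, le_rfl⟩)
    have hcard : hfin.toFinset.card = O.ncard := (Set.ncard_eq_toFinset_card O hfin).symm
    have hD : ∀ x ∈ O, pathDist G ℓ x (ν x) ≤ 0 := fun x hx => by
      have h1 := hν.le x x hx
      rwa [hd.self] at h1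
    have hlog : ((Nat.log 2 hfin.toFinset.card + 1 : ℕ) : ℝ) ≤ 3 * Real.log ((m : ℝ) + 2) := by
      refine (_root_.Vale.Agent.P235.log_add_two _).trans ?_
      have h1 : Real.log ((hfin.toFinset.card : ℝ) + 2) ≤ Real.log ((m : ℝ) + 2) := by
        refine Real.log_le_log (by positivity) ?_
        rw [hcard]
        have : (O.ncard : ℝ) ≤ m := by exact_mod_cast hm
        linarith
      linarith
    refine ((hβI.smul (by norm_num : (0 : ℝ) ≤ 24)).comap
      (Subtype.val : O → V)).embeds (fun x y => ?_) fun x y => ?_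
    · show pathDist G ℓ x y ≤ 24 * β x y
      have h1 := hβl x.1 y.1
      have h2 : max (pathDist G ℓ x.1 (ν x.1)) (pathDist G ℓ y.1 (ν y.1)) ≤ 0 :=
        max_le (hD _ x.2) (hD _ y.2)
      linarith
    · show 24 * β x y ≤ 72 * Real.log ((m : ℝ) + 2) * pathDist G ℓ x y
      have h1 := hβu x.1 y.1
      have h2 := mul_le_mul_of_nonneg_right hlog (hd.nonneg x.1 y.1)
      linarith

/-- the metric of `O` by squares -/
theorem pts_sq (hM : R2.H907.VarK.RowVarK) {V : Type} [Finite V] {G : SimpleGraph V} {ℓ : Sym2 V → ℝ}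
    {r : ℕ} (hc : G.Connected) (hpl : Kr.NoK r G) (hℓ : ∀ e ∈ G.edgeSet, 0 < ℓ e)
    (O : Set V) (m : ℕ) (hm : O.ncard ≤ m) (hO : O.Nonempty) :
    ∃ N : V → V → ℝ, IsSq N ∧
      (∀ a b, G.Adj a b → N a b ≤ 36 * Real.log ((m : ℝ) + 2) * ℓ s(a, b) ^ 2) ∧
      ∀ x ∈ O, ∀ y ∈ O, 0 < pathDist G ℓ x y →
        pathDist G ℓ x y ^ 2 ≤ 64 * 10 ^ 6 * ((r : ℝ) + 2) ^ 6 * N x y := by
  classical
  have := Fintype.ofFinite V
  have hd := pathDist_isMet hc hℓ
  let ι := {o : V // o ∈ O}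
  have hne : Nonempty ι := ⟨⟨hO.some, hO.some_mem⟩⟩
  let D : ι → V → ℝ := fun i v => pathDist G ℓ v i.1
  have hDt : ∀ i x y, D i x ≤ pathDist G ℓ x y + D i y := fun i x y => hd.tri x y i.1
  have hD0 : ∀ i v, 0 ≤ D i v := fun i v => hd.nonneg _ _
  have hDl : ∀ i a b, G.Adj a b → |D i a - D i b| ≤ ℓ s(a, b) := by
    intro i a b hab
    have h1 := hDt i a b
    have h2 := hDt i b a
    rw [hd.symm b a] at h2
    have h3 := pathDist_adj hℓ hab
    rw [abs_le]
    constructor <;> linarith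
  set J := Nat.log 2 (Fintype.card ι) with hJ
  have hτ : ∀ j : Fin (J + 1), ∃ τ : V → ℝ, (∀ v, 0 ≤ τ v) ∧
      (∀ a b, G.Adj a b → |τ a - τ b| ≤ ℓ s(a, b)) ∧
      (∀ v t, ∀ A : Finset ι, (∀ i ∈ A, D i v ≤ t) → 2 ^ (j : ℕ) ≤ A.card → τ v ≤ t) ∧
      ∀ v t, (∀ A : Finset ι, (∀ i ∈ A, D i v ≤ t) → A.card < 2 ^ (j : ℕ)) → t < τ v := by
    intro j
    refine Kpr.orderStat D hD0 hDl (by positivity) ?_
    have hcard : Fintype.card ι ≠ 0 := Fintype.card_ne_zero
    exact Nat.pow_le_of_le_log hcard (by have := j.2; omega)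
  choose τ hτ0 hτl hτle hτlt using hτ
  choose N hN1 hN2 hN3 using fun j => hM V G ℓ r hc hpl hℓ (τ j) (hτ0 j) (hτl j)
  have hlogJ : ((J : ℝ) + 1) ≤ 3 * Real.log ((m : ℝ) + 2) := by
    have h1 := _root_.Vale.Agent.P235.log_add_two (Fintype.card ι)
    have h2 : Fintype.card ι ≤ m := by
      have e : Fintype.card ι = O.ncard := by
        rw [← Nat.card_eq_fintype_card]
        exact Nat.card_coe_set_eq O
      rw [e]
      exact hm
    have h3 : Real.log ((Fintype.card ι : ℝ) + 2) ≤ Real.log ((m : ℝ) + 2) := by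
      refine Real.log_le_log (by positivity) ?_
      have : (Fintype.card ι : ℝ) ≤ m := by exact_mod_cast h2
      linarith
    push_cast at h1
    linarith
  refine ⟨fun a b => ∑ j : Fin (J + 1), N j a b,
    IsSq.sum Finset.univ (fun j => N j) fun j _ => hN1 j, ?_, ?_⟩
  · intro a b hab
    show ∑ j : Fin (J + 1), N j a b ≤ _
    have h2 : ∑ j : Fin (J + 1), N j a b ≤ ((J : ℝ) + 1) * (12 * ℓ s(a, b) ^ 2) := by
      refine (Finset.sum_le_sum fun j _ => hN2 j a b hab).trans (le_of_eq ?_)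
      rw [Finset.sum_const, Finset.card_univ, Fintype.card_fin, nsmul_eq_mul]
      push_cast
      ring
    have h3 := sq_nonneg (ℓ s(a, b))
    nlinarith [mul_le_mul_of_nonneg_right hlogJ h3]
  · have half : ∀ x ∈ O, ∀ y ∈ O, 0 < pathDist G ℓ x y →
        (Finset.univ.filter fun i : ι => D i x ≤ pathDist G ℓ x y / 8).card ≤
          (Finset.univ.filter fun i : ι => D i y ≤ pathDist G ℓ x y / 8).card →
        pathDist G ℓ x y ^ 2 ≤
          64 * 10 ^ 6 * ((r : ℝ) + 2) ^ 6 * ∑ j : Fin (J + 1), N j x y := by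
      intro x hxO y hyO hxy hcard
      set d := pathDist G ℓ x y with hdd
      set A := Finset.univ.filter fun i : ι => D i x ≤ d / 8 with hA
      set B := Finset.univ.filter fun i : ι => D i y ≤ d / 8 with hB
      have hApos : A.card ≠ 0 := by
        refine Finset.card_ne_zero_of_mem (a := ⟨x, hxO⟩)
          (Finset.mem_filter.2 ⟨Finset.mem_univ _, ?_⟩)
        show pathDist G ℓ x x ≤ d / 8
        rw [hd.self]
        linarith
      have hdisj : Disjoint A B := by
        rw [Finset.disjoint_left]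
        intro i h1 h2
        have h1' := (Finset.mem_filter.1 h1).2
        have h2' := (Finset.mem_filter.1 h2).2
        have h3 := hd.tri x i.1 y
        have h4 : pathDist G ℓ x i.1 ≤ d / 8 := h1'
        have h5 : pathDist G ℓ y i.1 ≤ d / 8 := h2'
        rw [hd.symm y i.1] at h5
        linarith
      have hlt : A.card < 2 ^ (Nat.log 2 A.card + 1) := Nat.lt_pow_succ_log_self (by norm_num) _
      have hle : 2 ^ (Nat.log 2 A.card + 1) ≤ (A ∪ B).card := by
        rw [Finset.card_union_of_disjoint hdisj]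
        have h1 : 2 ^ Nat.log 2 A.card ≤ A.card := Nat.pow_log_le_self 2 hApos
        rw [pow_succ]
        omega
      have hJle : Nat.log 2 A.card + 1 ≤ J := by
        refine Nat.le_log_of_pow_le (by norm_num) (hle.trans ?_)
        exact Finset.card_le_univ _
      let j : Fin (J + 1) := ⟨Nat.log 2 A.card + 1, by omega⟩
      have h1 : τ j x ≤ 2 * d := by
        refine hτle j x (2 * d) (A ∪ B) (fun i hi => ?_) hle
        rcases Finset.mem_union.1 hi with h | h
        · have := (Finset.mem_filter.1 h).2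
          linarith
        · have h2 := (Finset.mem_filter.1 h).2
          have h3 := hDt i x y
          linarith
      have h2 : d / 8 < τ j x := by
        refine hτlt j x (d / 8) fun A' hA' => ?_
        have h3 : A' ⊆ A := fun i hi =>
          Finset.mem_filter.2 ⟨Finset.mem_univ i, hA' i hi⟩
        exact (Finset.card_le_card h3).trans_lt hlt
      have h3 := hN3 j x y (by linarith) h1
      have h4 : N j x y ≤ ∑ j : Fin (J + 1), N j x y :=
        Finset.single_le_sum (f := fun j => N j x y) (fun j _ => (hN1 j).nonneg x y)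
          (Finset.mem_univ j)
      have h5 : (d / 8) ^ 2 ≤ τ j x ^ 2 := pow_le_pow_left₀ (by positivity) h2.le 2
      have e : (d / 8) ^ 2 = d ^ 2 / 64 := by ring
      rw [e] at h5
      have h6 : 10 ^ 6 * ((r : ℝ) + 2) ^ 6 * N j x y ≤
          10 ^ 6 * ((r : ℝ) + 2) ^ 6 * ∑ j : Fin (J + 1), N j x y :=
        mul_le_mul_of_nonneg_left h4 (by positivity)
      linarith
    intro x hx y hy hxy
    show pathDist G ℓ x y ^ 2 ≤ 64 * 10 ^ 6 * ((r : ℝ) + 2) ^ 6 * ∑ j : Fin (J + 1), N j x y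
    rcases le_total (Finset.univ.filter fun i : ι => D i x ≤ pathDist G ℓ x y / 8).card
      (Finset.univ.filter fun i : ι => D i y ≤ pathDist G ℓ x y / 8).card with h | h
    · exact half x hx y hy hxy h
    · have e := hd.symm x y
      have h1 := half y hy x hx (by rw [← e]; exact hxy) (by rw [← e]; exact h)
      have h2 : ∑ j : Fin (J + 1), N j y x = ∑ j : Fin (J + 1), N j x y :=
        Finset.sum_congr rfl fun j _ => (hN1 j).symm y x
      rw [h2, ← e] at h1
      exact h1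

/-- the square root bound -/
theorem pts_sqrt (hM : R2.H907.VarK.RowVarK) {V : Type} [Finite V] {G : SimpleGraph V} {ℓ : Sym2 V → ℝ}
    {r : ℕ} (hc : G.Connected) (hpl : Kr.NoK r G) (hℓ : ∀ e ∈ G.edgeSet, 0 < ℓ e)
    (O : Set V) (m : ℕ) (hm : O.ncard ≤ m) :
    EmbedsL1 (fun x y : O => pathDist G ℓ x y)
      (96000 * ((r : ℝ) + 2) ^ 3 * √(Real.log ((m : ℝ) + 2))) := by
  classical
  have hd := pathDist_isMet hc hℓ
  rcases O.eq_empty_or_nonempty with h0 | hO
  · subst h0
    have he : IsEmpty (∅ : Set V) := Set.isEmpty_coe_sort.2 rfl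
    have h1 : IsL1 (fun _ _ : (∅ : Set V) => |(0 : ℝ) - 0|) :=
      isL1_line (fun _ : (∅ : Set V) => (0 : ℝ))
    exact h1.embeds (fun x => (he.false x).elim) (fun x => (he.false x).elim)
  obtain ⟨N, hN, hNl, hNx⟩ := pts_sq hM hc hpl hℓ O m hm hO
  obtain ⟨F, hF, hFN⟩ := hN.toL1
  have hs0 : (0 : ℝ) ≤ m := Nat.cast_nonneg _
  have hlog : 0 < Real.log ((m : ℝ) + 2) := Real.log_pos (by linarith)
  set R := √(Real.log ((m : ℝ) + 2)) with hR
  have hR0 : 0 < R := Real.sqrt_pos.2 hlog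
  have hRR : R ^ 2 = Real.log ((m : ℝ) + 2) := Real.sq_sqrt hlog.le
  have hFl : ∀ a b, G.Adj a b → F a b ≤ 6 * R * ℓ s(a, b) := by
    intro a b hab
    have hl := hℓ s(a, b) hab
    refine (hFN a b).1.trans ?_
    rw [Real.sqrt_le_left (by positivity)]
    refine (hNl a b hab).trans ?_
    rw [← hRR]
    nlinarith [mul_nonneg (sq_nonneg R) (sq_nonneg (ℓ s(a, b)))]
  have hFd : ∀ a b, F a b ≤ 6 * R * pathDist G ℓ a b := fun a b =>
    pathDist_semi hc (by positivity) (fun x => hF.self x) (fun x y z => hF.tri x y z) hFl a b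
  have hq : (0 : ℝ) ≤ 16000 * ((r : ℝ) + 2) ^ 3 := by positivity
  refine ((hF.smul hq).comap (Subtype.val : O → V)).embeds (fun x y => ?_) fun x y => ?_
  · show pathDist G ℓ x y ≤ 16000 * ((r : ℝ) + 2) ^ 3 * F x y
    have hF0 := hF.nonneg x.1 y.1
    rcases (hd.nonneg x.1 y.1).eq_or_lt with h0 | h0
    · rw [← h0]
      positivity
    · have h1 := hNx x.1 x.2 y.1 y.2 h0
      have h2 : pathDist G ℓ x y ≤ 8000 * ((r : ℝ) + 2) ^ 3 * √(N x y) := by
        have e : 8000 * ((r : ℝ) + 2) ^ 3 * √(N x.1 y.1) =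
            √(64 * 10 ^ 6 * ((r : ℝ) + 2) ^ 6 * N x.1 y.1) := by
          rw [Real.sqrt_mul (by positivity),
            show (64 * 10 ^ 6 * ((r : ℝ) + 2) ^ 6 : ℝ) = (8000 * ((r : ℝ) + 2) ^ 3) ^ 2 by ring,
            Real.sqrt_sq (by positivity)]
        rw [e]
        exact Real.le_sqrt_of_sq_le h1
      have h3 := (hFN x.1 y.1).2
      have h4 := mul_le_mul_of_nonneg_left h3
        (by positivity : (0 : ℝ) ≤ 8000 * ((r : ℝ) + 2) ^ 3)
      linarith
  · show 16000 * ((r : ℝ) + 2) ^ 3 * F x y ≤ _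
    have h1 := mul_le_mul_of_nonneg_left (hFd x.1 y.1) hq
    have e : 96000 * ((r : ℝ) + 2) ^ 3 * R * pathDist G ℓ x y =
        16000 * ((r : ℝ) + 2) ^ 3 * (6 * R * pathDist G ℓ x y) := by
      ring
    show _ ≤ 96000 * ((r : ℝ) + 2) ^ 3 * R * pathDist G ℓ x y
    rw [e]
    exact h1

/-- **(PTS)** -/
theorem pts : PtsStmt := by
  refine ⟨96000, by norm_num, fun V _ G ℓ r hc hpl hℓ O m hm => ⟨?_, ?_⟩⟩
  · obtain ⟨Ω, i, μ, f, h⟩ := pts_log hc hℓ O m hm
    refine ⟨Ω, i, μ, f, fun x y => ⟨(h x y).1, (h x y).2.trans ?_⟩⟩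
    have h1 : 0 ≤ Real.log ((m : ℝ) + 2) := Real.log_nonneg (by
      have : (0 : ℝ) ≤ m := Nat.cast_nonneg _
      linarith)
    have h2 : 0 ≤ pathDist G ℓ x y := pathDist_nonneg hℓ _ _
    have h3 := mul_nonneg h1 h2
    nlinarith
  · exact pts_sqrt (R2.H907.VarK.rowVarK H273.rowPadK') hc hpl hℓ O m hm

end Vale.Agent.P235.H953
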