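import Vale.Agent.P235.H750.VDefs
import Vale.Agent.P235.H648.Pack

/-!
P235 (helper953 for helper750), row NEST: the nesting theorem from VITS, SPA and VAR.
-/

set_option autoImplicit false

namespace Vale.Agent.P235.H953

open SimpleGraph Vale.Agent.P235 Vale.Agent.P235.H134 Vale.Agent.P235.H606
  Vale.Agent.P235.H750

/-- a set with at most one point is good -/
theorem dist_subsingleton {V : Type} (G : SimpleGraph V) (A : Set V) (h : ¬ A.Nontrivial)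
    (hc : (G.induce A).Connected) (C : ℝ) : DistortionLE (G.induce A) C := by
  obtain ⟨⟨v, hv⟩⟩ := hc.nonempty
  have hA : A = {v} := by
    rw [Set.not_nontrivial_iff] at h
    exact h.eq_singleton_of_mem hv
  subst hA
  exact H648.dist_single G v C

/-- **(NEST)** -/
theorem nest (hVit : VitSStmt) (hSpa : SpaStmt) (hVar : VarStmt) : NestStmt := by
  refine ⟨10 ^ 17, by norm_num, ?_⟩
  intro r C C' V _ G P hC hC' hc hr hmono hgood hquot ℓ hℓ
  classical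
  have hr0 : (0 : ℝ) ≤ r := Nat.cast_nonneg r
  have hq1 : (1 : ℝ) ≤ (r : ℝ) + 2 := by linarith
  have hq3 : (1 : ℝ) ≤ ((r : ℝ) + 2) ^ 3 := one_le_pow₀ hq1
  have hq6 : (1 : ℝ) ≤ ((r : ℝ) + 2) ^ 6 := one_le_pow₀ hq1
  have hd0 : ∀ x y, 0 ≤ pathDist G ℓ x y := pathDist_nonneg hℓ
  obtain ⟨O, R, hO, hdis, hcov⟩ := hVit V G ℓ (fun A => P A ∧ A.Nontrivial) hc hℓ
    (fun v h => by
      obtain ⟨x, hx, y, hy, hxy⟩ := h.2
      exact hxy (hx.trans hy.symm))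
  have hball : ∀ (v : V) (ρ : ℝ), 0 ≤ ρ → (∀ o ∈ O, 15 * ρ < pathDist G ℓ v o) →
      DistortionLE (G.induce (ball G ℓ v ρ)) C := by
    intro v ρ hρ h
    have h1 := hcov v ρ hρ h
    have h2 := (indStmt V G ℓ v ρ hc hℓ hρ).1
    by_cases h3 : (ball G ℓ v ρ).Nontrivial
    · exact hgood _ h2 fun h4 => h1 ⟨h4, h3⟩
    · exact dist_subsingleton G _ h3 h2 C
  -- the end
  have fin : ∀ (X : Set V) (B : ℝ), X.Nonempty → 1 ≤ B → B ≤ 10 ^ 8 * ((r : ℝ) + 2) ^ 6 * C' →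
      O ⊆ X → EmbedsL1 (fun x y : X => pathDist G ℓ x y) B →
      EmbedsL1 (pathDist G ℓ) (10 ^ 17 * ((r : ℝ) + 2) ^ 9 * (C + C')) := by
    intro X B hX hB hB' hOX hE
    have h1 := hVar V G ℓ r X B C (1 / 15) hc hr hℓ hX hB hC (by norm_num) (by norm_num) hE
      (fun v ρ hρ h => hball v ρ hρ fun o ho => by
        have := h o (hOX ho)
        linarith)
    refine H648.emb_mono hd0 ?_ h1
    have h2 : C / (1 / 15) + B ≤ 10 ^ 8 * ((r : ℝ) + 2) ^ 6 * (C + C') := by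
      have h3 : C / (1 / 15) = 15 * C := by ring
      rw [h3]
      have h4 : C ≤ ((r : ℝ) + 2) ^ 6 * C := le_mul_of_one_le_left (by linarith) hq6
      nlinarith
    calc 10 ^ 9 * ((r : ℝ) + 2) ^ 3 * (C / (1 / 15) + B)
        ≤ 10 ^ 9 * ((r : ℝ) + 2) ^ 3 * (10 ^ 8 * ((r : ℝ) + 2) ^ 6 * (C + C')) :=
          mul_le_mul_of_nonneg_left h2 (by positivity)
      _ = 10 ^ 17 * ((r : ℝ) + 2) ^ 9 * (C + C') := by ring
  have hB1 : 1 ≤ 10 ^ 8 * ((r : ℝ) + 2) ^ 6 * C' := by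
    have h1 : (1 : ℝ) ≤ 10 ^ 8 * ((r : ℝ) + 2) ^ 6 :=
      one_le_mul_of_one_le_of_one_le (by norm_num) hq6
    exact one_le_mul_of_one_le_of_one_le h1 hC'
  rcases O.eq_empty_or_nonempty with h0 | hne
  · subst h0
    obtain ⟨x₀⟩ := hc.nonempty
    refine fin {x₀} 1 ⟨x₀, rfl⟩ le_rfl hB1 (Set.empty_subset _) ?_
    have hd := pathDist_isMet hc hℓ
    have h1 : IsL1 (fun _ _ : ({x₀} : Set V) => |(0 : ℝ) - 0|) :=
      isL1_line (fun _ : ({x₀} : Set V) => (0 : ℝ))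
    have h2 : ∀ x y : ({x₀} : Set V), pathDist G ℓ x y = 0 := by
      rintro ⟨x, hx⟩ ⟨y, hy⟩
      have hx' : x = x₀ := hx
      have hy' : y = x₀ := hy
      subst hx'
      subst hy'
      exact hd.self _
    refine h1.embeds (fun x y => ?_) fun x y => ?_
    · show pathDist G ℓ x y ≤ |(0 : ℝ) - 0|
      rw [h2]
      simp
    · show |(0 : ℝ) - 0| ≤ 1 * pathDist G ℓ x y
      rw [h2]
      simp
  · refine fin O (10 ^ 8 * ((r : ℝ) + 2) ^ 6 * C') hne hB1 le_rfl subset_rfl ?_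
    refine hSpa V G ℓ r O R C' hc hr hℓ hne hC' (fun o ho => (hO o ho).1) hdis ?_
    intro p hp hfib hconn
    refine hquot O (quotO G O p) p hconn (fun o => ⟨hfib o, ?_⟩) (fun a b hab => hab.2)
      (fun u v huv hne => ⟨hne, u, v, huv, rfl, rfl⟩)
    exact hmono _ _ (fun v hv => hp o v hv) (hO o o.2).2.1

end Vale.Agent.P235.H953
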