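import Vale.Agent.P235.H750.VDefs
import Vale.Agent.P235.H786.Ball
import Vale.Agent.P235.H236.SplK

/-!
P235 (helper953 for helper750), rows COMPO and SELF, from NEST (and BADK, MONO).
-/

set_option autoImplicit false

namespace Vale.Agent.P235.H953

open SimpleGraph Vale.Agent.P235 Vale.Agent.P235.H134 Vale.Agent.P235.H606
  Vale.Agent.P235.H750

/-- a connected union of connected sets -/
theorem union_conn {V X : Type} {G : SimpleGraph V} {Q : SimpleGraph X} {ν : X → Set V}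
    (h1 : ∀ a, (G.induce (ν a)).Connected)
    (h3 : ∀ a b, Q.Adj a b → ∃ x ∈ ν a, ∃ y ∈ ν b, G.Adj x y) {S : Set X}
    (hS : (Q.induce S).Connected) : (G.induce (⋃ x ∈ S, ν x)).Connected := by
  have hT : ∀ x ∈ S, ν x ⊆ ⋃ x ∈ S, ν x := fun x hx => Set.subset_biUnion_of_mem hx
  obtain ⟨⟨x0, hx0⟩⟩ := hS.nonempty
  obtain ⟨⟨v0, hv0⟩⟩ := (h1 x0).nonempty
  have : Nonempty (⋃ x ∈ S, ν x : Set V) := ⟨⟨v0, hT x0 hx0 hv0⟩⟩
  refine ⟨fun u v => ?_⟩
  obtain ⟨u, hu⟩ := u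
  obtain ⟨v, hv⟩ := v
  obtain ⟨x, hx, hux⟩ := Set.mem_iUnion₂.1 hu
  obtain ⟨y, hy, hvy⟩ := Set.mem_iUnion₂.1 hv
  obtain ⟨w⟩ := hS.preconnected ⟨x, hx⟩ ⟨y, hy⟩
  exact H56.reachable_union h1 h3 hT w u v hux hvy

/-- **(COMPO)** -/
theorem compo (hN : NestStmt) : CompoStmt := by
  obtain ⟨K, hK, hN⟩ := hN
  refine ⟨K, hK, ?_⟩
  intro W₁ W₂ _ _ H₁ H₂ C₁ C₂ r V _ G hC₁ hC₂ hF₁ hF₂ hc hr hno
  refine hN r C₁ C₂ V G (fun A => IsMinor H₁ (G.induce A)) hC₁ hC₂ hc hr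
    (fun A B hAB h => H786.minor_mono hAB h)
    (fun A hA hm => hF₁ A (G.induce A) hA hm) ?_
  intro W _ Q p hQ hfib hadj _
  refine hF₂ W Q hQ fun hmin => hno ?_
  obtain ⟨μ, m1, m2, m3⟩ := hmin
  have hadj' : ∀ a b, Q.Adj a b → ∃ x ∈ {v | p v = a}, ∃ y ∈ {v | p v = b}, G.Adj x y := by
    intro a b hab
    obtain ⟨u, v, h, hu, hv⟩ := hadj a b hab
    exact ⟨u, hu, v, hv, h⟩
  refine ⟨fun a => ⋃ x ∈ μ a, {v | p v = x}, fun a => ⟨?_, ?_⟩, fun a b hab => ?_,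
    fun a b hab => ?_⟩
  · exact union_conn (fun x => (hfib x).1) hadj' (m1 a)
  · obtain ⟨⟨x, hx⟩⟩ := (m1 a).nonempty
    exact H786.minor_mono (Set.subset_biUnion_of_mem (u := fun x => {v | p v = x}) hx)
      (hfib x).2
  · rw [Set.disjoint_left]
    intro z hz hz'
    obtain ⟨x, hx, hzx⟩ := Set.mem_iUnion₂.1 hz
    obtain ⟨y, hy, hzy⟩ := Set.mem_iUnion₂.1 hz'
    have hxy : x = y := (show p z = x from hzx).symm.trans (show p z = y from hzy)
    subst hxy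
    exact Set.disjoint_left.1 (m2 a b hab) hx hy
  · obtain ⟨x, hx, y, hy, hxy⟩ := m3 a b hab
    obtain ⟨u, hu, v, hv, h⟩ := hadj' x y hxy
    exact ⟨u, Set.mem_iUnion₂.2 ⟨x, hx, hu⟩, v, Set.mem_iUnion₂.2 ⟨y, hy, hv⟩, h⟩

/-- the induced subgraph on a subset is a minor -/
theorem minor_sub {V : Type} {G : SimpleGraph V} {A B : Set V} (h : B ⊆ A) :
    IsMinor (G.induce B) (G.induce A) := by
  refine H236.isMinor_induce (ν := fun b : B => ({b.1} : Set V)) (fun b => ?_)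
    (fun b => H56.conn_single G b.1) (fun a b hab => ?_) (fun a b hab => ?_)
  · rintro x rfl
    exact h b.2
  · rw [Set.disjoint_singleton]
    exact fun e => hab (Subtype.ext e)
  · exact ⟨a.1, rfl, b.1, rfl, hab⟩

theorem badMinor_mono {V : Type} {G : SimpleGraph V} {C C' : ℝ} (h : C ≤ C')
    (hB : BadMinor G C' C') : BadMinor G C C := by
  obtain ⟨W, hW, Q, μ, h1, h2, h3, h4, h5⟩ := hB
  exact ⟨W, hW, Q, μ, h1, fun hd => h2 (hd.mono h),
    fun a => ⟨(h3 a).1, fun hd => (h3 a).2 (hd.mono h)⟩, h4, h5⟩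

theorem top_conn {n : ℕ} (hn : 1 ≤ n) : (⊤ : SimpleGraph (Fin n)).Connected := by
  have : Nonempty (Fin n) := ⟨⟨0, hn⟩⟩
  exact SimpleGraph.connected_top

/-- **(SELF)** -/
theorem self (hN : NestStmt) (hBad : BadKStmt) (hM : MonoStmt) : SelfStmt := by
  intro C
  obtain ⟨K, hK, hN⟩ := hN
  set D : ℝ := max C 1 with hD
  have hD1 : 1 ≤ D := le_max_right _ _
  obtain ⟨n, hn, hBad⟩ := hBad D
  refine ⟨K * (((n * n : ℕ) : ℝ) + 2) ^ 9 * (2 * D + D), ?_⟩
  intro V _ G hc hbig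
  refine badMinor_mono (le_max_left C 1) ?_
  by_cases hr : Kr.NoK (n * n) G
  · by_contra hno
    apply hbig
    refine hN (n * n) (2 * D) D V G
      (fun A => ∃ B ⊆ A, (G.induce B).Connected ∧ ¬ DistortionLE (G.induce B) (2 * D))
      (by linarith) hD1 hc hr ?_ ?_ ?_
    · rintro A B hAB ⟨E, hE, h⟩
      exact ⟨E, hE.trans hAB, h⟩
    · intro A hA hP
      by_contra hd
      exact hP ⟨A, subset_rfl, hA, hd⟩
    · intro W _ Q p hQ hfib hadj _
      by_contra hd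
      refine hno ⟨W, inferInstance, Q, fun a => {v | p v = a}, hQ, hd, fun a => ⟨(hfib a).1, ?_⟩,
        fun a b hab => ?_, fun a b hab => ?_⟩
      · intro hda
        obtain ⟨B, hB, hBc, hBd⟩ := (hfib a).2
        exact hBd (hM _ _ (G.induce {v | p v = a}) (G.induce B) D hD1 (hfib a).1 hBc
          (minor_sub hB) hda)
      · rw [Set.disjoint_left]
        intro v hv hv'
        exact hab ((show p v = a from hv).symm.trans (show p v = b from hv'))
      · obtain ⟨u, v, h, hu, hv⟩ := hadj a b hab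
        exact ⟨u, hu, v, hv, h⟩
  · have hr' : IsMinor (⊤ : SimpleGraph (Fin (n * n))) G := by
      by_contra h
      exact hr h
    obtain ⟨μ, h1, h2, h3⟩ := hr'
    have hne0 : Nonempty (Fin n) := ⟨⟨0, hn⟩⟩
    have hne : ∀ (i j k l : Fin n), (i ≠ j ∨ k ≠ l) →
        (finProdFinEquiv (i, k) : Fin (n * n)) ≠ finProdFinEquiv (j, l) := by
      intro i j k l hkl h
      have h' := finProdFinEquiv.injective h
      rcases hkl with hkl | hkl
      · exact hkl (congrArg Prod.fst h')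
      · exact hkl (congrArg Prod.snd h')
    have hAc : ∀ i : Fin n, (G.induce (⋃ k : Fin n, μ (finProdFinEquiv (i, k)))).Connected :=
      fun i => H236.connected_iUnion (fun k => h1 _) fun k l hkl =>
        h3 _ _ ((top_adj _ _).2 (hne i i k l (Or.inr hkl)))
    refine ⟨Fin n, inferInstance, ⊤, fun i => ⋃ k : Fin n, μ (finProdFinEquiv (i, k)),
      top_conn hn, ?_, fun i => ⟨hAc i, ?_⟩, fun i j hij => ?_, fun i j hij => ?_⟩
    · refine hBad _ _ (top_conn hn) ?_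
      exact ⟨fun a => {a}, fun a => H56.conn_single _ a,
        fun a b hab => Set.disjoint_singleton.2 hab, fun a b hab => ⟨a, rfl, b, rfl, hab⟩⟩
    · refine hBad _ _ (hAc i) ?_
      refine H236.isMinor_induce (ν := fun k => μ (finProdFinEquiv (i, k)))
        (fun k => Set.subset_iUnion (fun k => μ (finProdFinEquiv (i, k))) k)
        (fun k => h1 _) (fun k l hkl => h2 _ _ (hne i i k l (Or.inr hkl)))
        (fun k l hkl => h3 _ _ ((top_adj _ _).2 (hne i i k l (Or.inr hkl.ne))))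
    · rw [Set.disjoint_left]
      intro x hx hx'
      obtain ⟨k, hk⟩ := Set.mem_iUnion.1 hx
      obtain ⟨l, hl⟩ := Set.mem_iUnion.1 hx'
      exact Set.disjoint_left.1 (h2 _ _ (hne i j k l (Or.inl hij))) hk hl
    · have h0 : (⟨0, hn⟩ : Fin n) = ⟨0, hn⟩ := rfl
      obtain ⟨x, hx, y, hy, hxy⟩ := h3 _ _ ((top_adj _ _).2
        (hne i j ⟨0, hn⟩ ⟨0, hn⟩ (Or.inl hij.ne)))
      exact ⟨x, Set.mem_iUnion.2 ⟨_, hx⟩, y, Set.mem_iUnion.2 ⟨_, hy⟩, hxy⟩

end Vale.Agent.P235.H953
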