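import Vale.Agent.P235.H830.QDefs

/-!
P235 (helper953 for helper830), row JQ: the boundary of the grid `r + 2` is a vertex of `K_{3,3}`.
-/

set_option autoImplicit false

namespace Vale.Agent.P235.H953

open SimpleGraph Vale.Agent.P235.H134 Vale.Agent.P235.H56 Vale.Agent.P235.H141
  Vale.Agent.P235.H830

theorem range_conn {V : Type} {G : SimpleGraph V} {n : ℕ} (f : Fin (n + 1) → V)
    (hf : ∀ i j, (pathGraph (n + 1)).Adj i j → G.Adj (f i) (f j)) :
    (G.induce (Set.range f)).Connected := by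
  refine connected_of_map (A := pathGraph (n + 1)) (fun i => ⟨f i, i, rfl⟩) ?_ ?_
    (pathGraph_connected n)
  · rintro ⟨_, i, rfl⟩
    exact ⟨i, rfl⟩
  · intro i j hij
    exact Or.inr (hf i j hij)

theorem single_conn {V : Type} {G : SimpleGraph V} (v : V) : (G.induce {v}).Connected := by
  have : Nonempty ({v} : Set V) := ⟨⟨v, rfl⟩⟩
  have : Subsingleton ({v} : Set V) := by
    constructor
    rintro ⟨a, ha⟩ ⟨b, hb⟩
    exact Subtype.ext (ha.trans hb.symm)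
  exact ⟨fun a b => by rw [Subsingleton.elim a b]⟩

section Q
variable {r : ℕ}

theorem Q_grid {x y : Fin r × Fin r} (h : (grid r).Adj x y) :
    (Q r).Adj (Sum.inr x) (Sum.inr y) := by
  rw [Q, fromRel_adj]
  refine ⟨fun e => h.ne (Sum.inr.inj e), Or.inl (Or.inr (Or.inr (Or.inr ⟨x, y, h, rfl, rfl⟩)))⟩

theorem Q_side {i : Fin 3} {x : Fin r × Fin r} (h : x ∈ side r i) :
    (Q r).Adj (Sum.inl (Sum.inl i)) (Sum.inr x) := by
  rw [Q, fromRel_adj]
  exact ⟨by simp, Or.inl (Or.inr (Or.inr (Or.inl ⟨i, x, h, rfl, rfl⟩)))⟩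

theorem Q_two (i : Fin 3) (j : Fin 2) :
    (Q r).Adj (Sum.inl (Sum.inl i)) (Sum.inl (Sum.inr j)) := by
  rw [Q, fromRel_adj]
  exact ⟨by simp, Or.inl (Or.inr (Or.inl ⟨i, j, rfl, rfl⟩))⟩

end Q

theorem grid_adj {r : ℕ} {x y : Fin r × Fin r} : (grid r).Adj x y ↔
    ((x.1.val + 1 = y.1.val ∨ y.1.val + 1 = x.1.val) ∧ x.2 = y.2) ∨
    ((x.2.val + 1 = y.2.val ∨ y.2.val + 1 = x.2.val) ∧ x.1 = y.1) := by
  rw [grid, boxProd_adj, pathGraph_adj, pathGraph_adj]

/-- the shift of the small grid -/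
def sh (r : ℕ) (x : Fin r × Fin r) : Fin (r + 2) × Fin (r + 2) :=
  (⟨x.1.val + 1, by omega⟩, ⟨x.2.val + 1, by omega⟩)

/-- the boundary -/
def ri (r : ℕ) : Set ((Fin 3 ⊕ Fin 2) ⊕ (Fin (r + 2) × Fin (r + 2))) :=
  {p | ∃ x ∈ bd (r + 2), p = Sum.inr x}

theorem ri_conn (r : ℕ) : ((Q (r + 2)).induce (ri r)).Connected := by
  have l1 := range_conn (G := Q (r + 2)) (n := r + 1) (fun i => Sum.inr ((0 : Fin (r + 2)), i))
    fun i j h => Q_grid (grid_adj.2 (Or.inr ⟨pathGraph_adj.1 h, rfl⟩))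
  have l2 := range_conn (G := Q (r + 2)) (n := r + 1) (fun i => Sum.inr (i, (0 : Fin (r + 2))))
    fun i j h => Q_grid (grid_adj.2 (Or.inl ⟨pathGraph_adj.1 h, rfl⟩))
  have l3 := range_conn (G := Q (r + 2)) (n := r + 1) (fun i => Sum.inr (Fin.last (r + 1), i))
    fun i j h => Q_grid (grid_adj.2 (Or.inr ⟨pathGraph_adj.1 h, rfl⟩))
  have l4 := range_conn (G := Q (r + 2)) (n := r + 1) (fun i => Sum.inr (i, Fin.last (r + 1)))
    fun i j h => Q_grid (grid_adj.2 (Or.inl ⟨pathGraph_adj.1 h, rfl⟩))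
  have m1 := H578.conn_union' l1 l2 ⟨Sum.inr (0, 0), ⟨0, rfl⟩, ⟨0, rfl⟩⟩
  have m2 := H578.conn_union' l3 l4
    ⟨Sum.inr (Fin.last (r + 1), Fin.last (r + 1)), ⟨Fin.last (r + 1), rfl⟩,
      ⟨Fin.last (r + 1), rfl⟩⟩
  have m3 := H578.conn_union' m1 m2
    ⟨Sum.inr (Fin.last (r + 1), 0), Or.inr ⟨Fin.last (r + 1), rfl⟩, Or.inl ⟨0, rfl⟩⟩
  have e : ri r = (Set.range (fun i => Sum.inr ((0 : Fin (r + 2)), i)) ∪
      Set.range (fun i => Sum.inr (i, (0 : Fin (r + 2))))) ∪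
      (Set.range (fun i => Sum.inr (Fin.last (r + 1), i)) ∪
      Set.range (fun i => Sum.inr (i, Fin.last (r + 1)))) := by
    ext p
    constructor
    · rintro ⟨⟨a, b⟩, h, rfl⟩
      rcases h with h | h | h | h
      · exact Or.inl (Or.inl ⟨b, by
          have : a = 0 := Fin.ext h
          rw [this]⟩)
      · exact Or.inl (Or.inr ⟨a, by
          have : b = 0 := Fin.ext h
          rw [this]⟩)
      · refine Or.inr (Or.inl ⟨b, ?_⟩)
        have : a = Fin.last (r + 1) := Fin.ext (by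
          have h' : a.val + 1 = r + 2 := h
          simp only [Fin.val_last]
          omega)
        rw [this]
      · refine Or.inr (Or.inr ⟨a, ?_⟩)
        have : b = Fin.last (r + 1) := Fin.ext (by
          have h' : b.val + 1 = r + 2 := h
          simp only [Fin.val_last]
          omega)
        rw [this]
    · rintro ((⟨i, rfl⟩ | ⟨i, rfl⟩) | (⟨i, rfl⟩ | ⟨i, rfl⟩))
      · exact ⟨_, Or.inl rfl, rfl⟩
      · exact ⟨_, Or.inr (Or.inl rfl), rfl⟩
      · exact ⟨_, Or.inr (Or.inr (Or.inl (by simp))), rfl⟩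
      · exact ⟨_, Or.inr (Or.inr (Or.inr (by simp))), rfl⟩
  rw [e]
  exact m3

/-- the branch sets -/
def mu (r : ℕ) : ((Fin 3 ⊕ Fin 3) ⊕ (Fin r × Fin r)) →
    Set ((Fin 3 ⊕ Fin 2) ⊕ (Fin (r + 2) × Fin (r + 2)))
  | Sum.inl (Sum.inl i) => if i = 0 then ri r else {Sum.inl (Sum.inr (if i = 1 then 0 else 1))}
  | Sum.inl (Sum.inr j) => {Sum.inl (Sum.inl j)}
  | Sum.inr x => {Sum.inr (sh r x)}

theorem mu_zero (r : ℕ) : mu r (Sum.inl (Sum.inl 0)) = ri r := rfl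
theorem mu_one (r : ℕ) : mu r (Sum.inl (Sum.inl 1)) = {Sum.inl (Sum.inr 0)} := rfl
theorem mu_two (r : ℕ) : mu r (Sum.inl (Sum.inl 2)) = {Sum.inl (Sum.inr 1)} := rfl
theorem mu_r (r : ℕ) (j : Fin 3) : mu r (Sum.inl (Sum.inr j)) = {Sum.inl (Sum.inl j)} := rfl
theorem mu_g (r : ℕ) (x : Fin r × Fin r) : mu r (Sum.inr x) = {Sum.inr (sh r x)} := rfl

theorem sh_inj {r : ℕ} {x y : Fin r × Fin r} (h : sh r x = sh r y) : x = y := by
  have h1 := congrArg (fun z => z.1.val) h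
  have h2 := congrArg (fun z => z.2.val) h
  simp only [sh] at h1 h2
  exact Prod.ext (Fin.ext (by omega)) (Fin.ext (by omega))

theorem sh_not {r : ℕ} (x : Fin r × Fin r) : sh r x ∉ bd (r + 2) := by
  have h1 := x.1.isLt
  have h2 := x.2.isLt
  rintro (h | h | h | h)
  · simp [sh] at h
  · simp [sh] at h
  · simp only [sh] at h
    omega
  · simp only [sh] at h
    omega

/-- a label of the branch sets -/
def lab (r : ℕ) : ((Fin 3 ⊕ Fin 2) ⊕ (Fin (r + 2) × Fin (r + 2))) →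
    ((Fin 3 ⊕ Fin 3) ⊕ (Fin r × Fin r)) → Prop :=
  fun p q => p ∈ mu r q

theorem mu_disj (r : ℕ) (a b : (Fin 3 ⊕ Fin 3) ⊕ (Fin r × Fin r)) (hab : a ≠ b) :
    Disjoint (mu r a) (mu r b) := by
  rw [Set.disjoint_left]
  intro p hp hq
  apply hab
  have key : ∀ p, ∀ a, p ∈ mu r a → a = (match p with
    | Sum.inl (Sum.inl j) => Sum.inl (Sum.inr j)
    | Sum.inl (Sum.inr j) => if j = 0 then Sum.inl (Sum.inl 1) else Sum.inl (Sum.inl 2)
    | Sum.inr x => if h : ∃ y, sh r y = x then Sum.inr h.choose else Sum.inl (Sum.inl 0)) := by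
    intro p a hp
    rcases a with (i | j) | x
    · fin_cases i
      · obtain ⟨x, hx, rfl⟩ := hp
        have : ¬ ∃ y, sh r y = x := by
          rintro ⟨y, rfl⟩
          exact sh_not y hx
        simp only [dif_neg this]
        rfl
      · have h : p = Sum.inl (Sum.inr 0) := hp
        subst h
        rfl
      · have h : p = Sum.inl (Sum.inr 1) := hp
        subst h
        rfl
    · have h : p = Sum.inl (Sum.inl j) := hp
      subst h
      rfl
    · have h : p = Sum.inr (sh r x) := hp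
      subst h
      have h1 : ∃ y, sh r y = sh r x := ⟨x, rfl⟩
      simp only [dif_pos h1]
      rw [sh_inj h1.choose_spec]
  rw [key p a hp, key p b hq]

theorem mu_conn (r : ℕ) (a : (Fin 3 ⊕ Fin 3) ⊕ (Fin r × Fin r)) :
    ((Q (r + 2)).induce (mu r a)).Connected := by
  rcases a with (i | j) | x
  · fin_cases i
    · exact ri_conn r
    · exact single_conn _
    · exact single_conn _
  · exact single_conn _
  · exact single_conn _

/-- the edges, one direction -/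
theorem mu_adj (r : ℕ) {a b : (Fin 3 ⊕ Fin 3) ⊕ (Fin r × Fin r)}
    (h : (∃ i j, a = Sum.inl (Sum.inl i) ∧ b = Sum.inl (Sum.inr j)) ∨
      (∃ x y, (grid r).Adj x y ∧ a = Sum.inr x ∧ b = Sum.inr y) ∨
      (a = Sum.inl (Sum.inl 0) ∧ ∃ z ∈ bd r, b = Sum.inr z)) :
    Touch (Q (r + 2)) (mu r a) (mu r b) := by
  rcases h with ⟨i, j, rfl, rfl⟩ | ⟨x, y, hxy, rfl, rfl⟩ | ⟨rfl, z, hz, rfl⟩
  · have hj : ∃ x ∈ side (r + 2) j, x ∈ bd (r + 2) := by
      fin_cases j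
      · exact ⟨(0, 0), Or.inl ⟨rfl, rfl⟩, Or.inl rfl⟩
      · exact ⟨(0, 0), Or.inr (Or.inl ⟨rfl, rfl⟩), Or.inl rfl⟩
      · refine ⟨(Fin.last (r + 1), 0), Or.inr (Or.inr ⟨rfl, Or.inl (by simp)⟩),
          Or.inr (Or.inl rfl)⟩
    fin_cases i
    · obtain ⟨x, h1, h2⟩ := hj
      exact ⟨Sum.inr x, ⟨x, h2, rfl⟩, _, rfl, (Q_side h1).symm⟩
    · exact ⟨_, rfl, _, rfl, (Q_two j 0).symm⟩
    · exact ⟨_, rfl, _, rfl, (Q_two j 1).symm⟩
  · refine ⟨_, rfl, _, rfl, Q_grid (grid_adj.2 ?_)⟩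
    rcases grid_adj.1 hxy with ⟨h1, h2⟩ | ⟨h1, h2⟩
    · refine Or.inl ⟨?_, ?_⟩
      · simp only [sh]
        omega
      · simp only [sh, h2]
    · refine Or.inr ⟨?_, ?_⟩
      · simp only [sh]
        omega
      · simp only [sh, h2]
  · rcases hz with h | h | h | h
    · refine ⟨Sum.inr (0, (sh r z).2), ⟨_, Or.inl rfl, rfl⟩, _, rfl,
        Q_grid (grid_adj.2 (Or.inl ⟨Or.inl ?_, rfl⟩))⟩
      simp [sh, h]
    · refine ⟨Sum.inr ((sh r z).1, 0), ⟨_, Or.inr (Or.inl rfl), rfl⟩, _, rfl,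
        Q_grid (grid_adj.2 (Or.inr ⟨Or.inl ?_, rfl⟩))⟩
      simp [sh, h]
    · refine ⟨Sum.inr (Fin.last (r + 1), (sh r z).2),
        ⟨_, Or.inr (Or.inr (Or.inl (by simp))), rfl⟩, _, rfl,
        Q_grid (grid_adj.2 (Or.inl ⟨Or.inr ?_, rfl⟩))⟩
      simp only [sh, Fin.val_last]
      omega
    · refine ⟨Sum.inr ((sh r z).1, Fin.last (r + 1)),
        ⟨_, Or.inr (Or.inr (Or.inr (by simp))), rfl⟩, _, rfl,
        Q_grid (grid_adj.2 (Or.inr ⟨Or.inr ?_, rfl⟩))⟩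
      simp only [sh, Fin.val_last]
      omega

theorem Touch.symm {V : Type} {G : SimpleGraph V} {S T : Set V} (h : Touch G S T) :
    Touch G T S := by
  obtain ⟨x, hx, y, hy, h⟩ := h
  exact ⟨y, hy, x, hx, h.symm⟩

/-- **(JQ)** -/
theorem jq : JQStmt := by
  intro r _
  refine ⟨mu r, mu_conn r, mu_disj r, fun a b hab => ?_⟩
  have hab' : (K33 ⊕g grid r).Adj a b ∨ (SimpleGraph.fromRel (fun p q =>
    p = Sum.inl (Sum.inl 0) ∧ ∃ z ∈ bd r, q = Sum.inr z)).Adj a b := hab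
  rcases hab' with h | h
  · rcases a with (i | j) | x <;> rcases b with (i' | j') | y
    · exact absurd h (by simp [K33])
    · exact mu_adj r (Or.inl ⟨i, j', rfl, rfl⟩)
    · exact absurd h (by simp)
    · exact Touch.symm (mu_adj r (Or.inl ⟨i', j, rfl, rfl⟩))
    · exact absurd h (by simp [K33])
    · exact absurd h (by simp)
    · exact absurd h (by simp)
    · exact absurd h (by simp)
    · exact mu_adj r (Or.inr (Or.inl ⟨x, y, h, rfl, rfl⟩))
  · rw [fromRel_adj] at h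
    rcases h.2 with h | h
    · exact mu_adj r (Or.inr (Or.inr h))
    · exact Touch.symm (mu_adj r (Or.inr (Or.inr h)))

end Vale.Agent.P235.H953
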